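import Vale.Agent.P141.H938.FlowD
import Vale.Agent.P141.H511.SeamZ
import Vale.Agent.P141.H576.StatZ
import Vale.Agent.P141.H401.CutData

/-!
# P141, line (A), gap part: the flow pair for the definite families

`zflow_tile` : the flow pair sum of the C-step on one tile, for the families `cb`, `mC` of `H401`
(`C` divided by `√ez`), every level.
-/

namespace Vale.Agent.P141.H672

open Finset Matrix
open Vale.Agent.P075
open Vale.Agent.P141.PL (Pt iv hs ix cx mem_iv)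
open Vale.Agent.P141.PL.H588 (hd)
open Vale.Agent.P141.PL.H315 (Tri A2 avg)
open Vale.Agent.P141.PL.H804
open Vale.Agent.P141.H958
open Vale.Agent.P141.H338 (cu)
open Vale.Agent.P141.H48 (US ES BSl sst cst)
open Vale.Agent.P141.H633 (YF)
open Vale.Agent.P141.H511 (BL CL YW FYB)
open Vale.Agent.P141.H401
open Vale.Agent.P141.H677
open Vale.Agent.P141.H305 (ClsM Cls kapM)

noncomputable section

open scoped Classical

variable {κ : Type} [Fintype κ] [DecidableEq κ] {L : ℕ} {e : κ → ℤ}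

/-- the pair sums do not see the sign of the flow matrix -/
theorem YW_YF (l : ℝ) (K : ℤ → ℕ → ℤ → Matrix κ κ ℝ) (b : ℕ → ℤ → ℤ → κ → ℝ) (k : ℕ) (m : Pt) :
    YW L l e K b (k + L) m * (YW L l e K b (k + L) m)ᵀ =
      YF L l e K (fun k y x => b k x y) (k + L) m *
        (YF L l e K (fun k y x => b k x y) (k + L) m)ᵀ := by
  rw [H511.YW_sq]
  unfold YF
  rw [Nat.add_sub_cancel]
  rfl

/-- line energies of the killed input of time `k` -/
theorem line_kF {n K : ℕ} (hK : K ≤ n) {e cP Λ : ℝ} {a : ℤ × ℤ → ℝ} {F : ℕ → Pt → ℝ}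
    {Q : ℕ → Pt → Prop} (h : BSl n e cP F Q) {k : ℕ} (hk : k ∈ Icc 1 K) (j x1 x3 : ℤ) :
    ∑ x0 ∈ iv k j, kF Λ a K F k (x0, x1, x3) ^ 2 ≤ e * 2 ^ k := by
  obtain ⟨i, rfl⟩ : ∃ i, k = i + 1 := ⟨k - 1, by have := (mem_Icc.1 hk).1; omega⟩
  have hi : i < n := (mem_Icc.1 hk).2.trans hK
  have h1 := h.l0 i hi (2 * j) x1 x3
  have h2 := h.l0 i hi (2 * j + 1) x1 x3
  have h3 : ∑ x0 ∈ iv (i + 1) j, F (i + 1) (x0, x1, x3) ^ 2 ≤ e * 2 ^ (i + 1) := by
    rw [H677.sum_halves, pow_succ]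
    linarith
  refine le_trans (sum_le_sum fun x0 _ => ?_) h3
  unfold kF
  by_cases h4 : i + 1 = 0 ∨ sst Λ a K (i + 1) (x0, x1, x3).2.1 (x0, x1, x3).2.2
  · rw [if_pos h4, zero_pow two_ne_zero]
    exact sq_nonneg _
  · rw [if_neg h4]

theorem iv_pt (k : ℕ) (x : ℤ) : Vale.Agent.P141.PL.H315.iv k x = iv k (ix k x) := rfl

/-- the mass of the root potentials -/
theorem GT_mass {K : ℕ} {x : Pt} {s r P : ℝ} {U : Tri} {g : ℤ → ℤ → ℝ} {u v : ℤ → ℤ → κ → ℝ}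
    (h : Cls K x s r P U g u v) :
    ∑ z ∈ iv K (ix K x.1), (GT u z K (ix K x.2.1)).trace ≤ 2 ^ K * s := by
  have h1 := h.U_u2
  unfold A2 avg at h1
  rw [iv_pt, iv_pt, card_product, PL.card_iv, PL.card_iv, sum_product] at h1
  have h2 : ∑ z ∈ iv K (ix K x.1), ∑ y ∈ iv K (ix K x.2.1), U.1 (z, y) ^ 2 ≤
      2 ^ K * 2 ^ K * s := by
    have h3 := (inv_mul_le_iff₀ (show (0 : ℝ) < ((2 ^ K * 2 ^ K : ℕ) : ℝ) by positivity)).1 h1
    push_cast at h3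
    exact h3
  have h4 : ∑ z ∈ iv K (ix K x.1), (GT u z K (ix K x.2.1)).trace ≤
      (2 ^ K : ℝ)⁻¹ * ∑ z ∈ iv K (ix K x.1), ∑ y ∈ iv K (ix K x.2.1), U.1 (z, y) ^ 2 := by
    rw [mul_sum]
    refine sum_le_sum fun z hz => ?_
    rw [GT_trace]
    refine mul_le_mul_of_nonneg_left (sum_le_sum fun y hy => ?_) (by positivity)
    exact h.u_le z hz y hy
  refine h4.trans ((mul_le_mul_of_nonneg_left h2 (by positivity)).trans (le_of_eq ?_))
  have : (2 : ℝ) ^ K ≠ 0 := by positivity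
  field_simp

/-- **The flow pair of the C-step on one tile.** -/
theorem zflow_tile {p : H401.Num} {s r ez cPz : ℝ} {n K : ℕ} {o : ℤ} {x : Pt} {U : Tri}
    {g : ℤ → ℤ → ℝ} {u v : ℤ → ℤ → κ → ℝ} {F2 F3 : ℕ → Pt → ℝ} {Q2 Q3 : ℕ → Pt → Prop} {P : ℝ}
    (he : Function.Injective e) (hm : ∀ i, e i ∈ lbs L) (ht : 0 < p.t) (hs : 0 < s) (hr : 1 ≤ r)
    (hez : 0 < ez) (hK : K ≤ n) (hcls : Cls K x s r P U g u v) (hP : 0 ≤ P)
    (hF2 : BSl n ez cPz F2 Q2) {cC : ℝ} (hcC : 0 < cC) (t₀ : ℤ) (j : ℕ) :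
    ∑ x0 ∈ iv K t₀, (cC / 2 ^ (j - 1)) ^ 2 * ∑ k ∈ Icc 1 K, ∑ m ∈ sN (p.al U K) o K (cx K x) x0 k,
      (phi (gramC (lv cC j * (4 ^ (k + L))⁻¹)
          (bl (k + L) (encR L (CL e fun z x1 => (√ez)⁻¹ • mC p U K v F2 x0 k z x1)) m.1 m.2.2)) *
        (YW L (p.lam s r) e (KT (p.lam s r) u) (cb p s r U K u F3 Q3 x0) (k + L) m *
          (YW L (p.lam s r) e (KT (p.lam s r) u) (cb p s r U K u F3 Q3 x0) (k + L) m)ᵀ)).trace ≤
      4 ^ L * 8 ^ K * (p.th s r ^ 2 * 1 * (P / p.lam s r) * s) := by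
  have hl : 0 < p.lam s r := H401.Num.lam_pos ht hs hr
  have hse : 0 < √ez := Real.sqrt_pos.2 hez
  have h := H938.flowD (L := L) (e := e) (N := K) (R := rv (cx K x)) (t₀ := t₀)
    (c := fun x0 k => cP o x0 k) (s := fun x0 k => sN (p.al U K) o K (cx K x) x0 k)
    (l := p.lam s r) (L₀ := 1) (Λ := P) (M := s) (cB := p.th s r)
    (Cv := fun x0 k z x1 => (√ez)⁻¹ • mC p U K v F2 x0 k z x1)
    (Z := fun x0 k x1 z => (√ez)⁻¹ * kF p.Lm U.2.1 K F2 k (x0, x1, z)) (v := v)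
    (G := GT u) (K := KT (p.lam s r) u) (b := fun x0 k y x1 => cb p s r U K u F3 Q3 x0 k x1 y)
    he hm zero_le_one hP hl ?_ ?_ ?_ ?_ ?_ ?_ ?_ ?_ ?_ ?_ hcC j
  · refine le_trans (le_of_eq ?_) h
    refine sum_congr rfl fun x0 _ => ?_
    congr 1
    refine sum_congr rfl fun k _ => sum_congr rfl fun m _ => ?_
    rw [YW_YF]
    rfl
  · intro x0 _ k hk m _
    exact H576.capR_lowW he hm (fun n m => Or.inl rfl) (mb p U K u F3 x0) (mem_Icc.1 hk).1 _ _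
  · intro k x y h
    exact cP_ix o h
  · intro k x y h
    show sN _ _ _ _ _ _ = sN _ _ _ _ _ _
    unfold sN
    rw [cP_ix o h]
  · intro x0 _ k _
    exact sN_sub ..
  · intro k _ x _ y _ h
    unfold cP at h
    omega
  · intro x0 _ k _ m _ w _ x1 _
    show (√ez)⁻¹ • (kF p.Lm U.2.1 K F2 k (x0, x1, w) • v x1 w) = _
    rw [smul_smul]
  · intro x0 _ k hk m _ w _ x1 _
    have h1 := line_kF (Λ := p.Lm) (a := U.2.1) hK hF2 hk (ix k x0) x1 w
    simp only [mul_pow, ← mul_sum, avg]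
    rw [PL.card_iv, inv_pow, Real.sq_sqrt hez.le]
    push_cast
    rw [inv_mul_le_iff₀ (by positivity), inv_mul_le_iff₀ hez]
    linarith
  · intro x1 hx ε
    have h1 := hcls.v_pot x1 hx ε
    have e1 : (ε ⬝ᵥ ε) = ∑ i, ε i ^ 2 := by
      unfold dotProduct
      exact sum_congr rfl fun i _ => (pow_two _).symm
    rw [e1] at h1
    refine le_trans (le_of_eq ?_) h1
    simp only [dotProduct_comm _ ε]
    rfl
  · intro x1
    exact tr_T hl K u x1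
  · exact GT_mass hcls

end

end Vale.Agent.P141.H672
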