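import Vale.Agent.P141.H331.SkelTZ
import Vale.Agent.P141.H672.ZFlowI

/-!
# P141, line (A), gap part: the field `ZFlow` of the definite families

`mkT_ZFlow` : the flow pair of the C-step, every level.
-/

namespace Vale.Agent.P141.H672

open Finset Matrix
open Vale.Agent.P141.PL (Pt iv hs ix cx mem_iv)
open Vale.Agent.P141.PL.H315 (Tri)
open Vale.Agent.P141.H48 (US ES BSl sst cst)
open Vale.Agent.P141.H331

noncomputable section

open scoped Classical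

/-- `P / lam ≤ L t ^ (-8 (c + d)) (t / r) ^ e0` -/
theorem pot_gap {t s r c d e0 L : ℝ} (ht : 0 < t) (ht1 : t ≤ 1) (hs : 0 < s) (hr : 1 ≤ r)
    (hc : 0 ≤ c) (hd : 0 ≤ d) (hL : 0 ≤ L) :
    L * t ^ (2 - c) * √s / (t ^ (2 - e0) * √s * r ^ e0) ≤
      L * (t ^ (-(8 * (c + d))) * (t / r) ^ e0) := by
  have hr0 : 0 < r := by linarith
  have h1 : t ^ (2 - c) = t ^ (-c) * t ^ e0 * t ^ (2 - e0) := by
    rw [← Real.rpow_add ht, ← Real.rpow_add ht]
    congr 1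
    ring
  have h2 : (t / r) ^ e0 = t ^ e0 / r ^ e0 := Real.div_rpow ht.le hr0.le e0
  have h3 : t ^ (-c) ≤ t ^ (-(8 * (c + d))) :=
    Real.rpow_le_rpow_of_exponent_ge ht ht1 (by nlinarith)
  have p1 : 0 < t ^ (2 - e0) := Real.rpow_pos_of_pos ht _
  have p2 : 0 < t ^ e0 := Real.rpow_pos_of_pos ht _
  have p3 : 0 < r ^ e0 := Real.rpow_pos_of_pos hr0 _
  have p4 : 0 < √s := Real.sqrt_pos.2 hs
  have e1 : L * t ^ (2 - c) * √s / (t ^ (2 - e0) * √s * r ^ e0) =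
      L * (t ^ (-c) * (t / r) ^ e0) := by
    rw [h1, h2]
    field_simp
  rw [e1]
  refine mul_le_mul_of_nonneg_left (mul_le_mul_of_nonneg_right h3 ?_) hL
  rw [h2]
  positivity

/-- **The field `ZFlow`.** -/
theorem mkT_ZFlow : MkT ZFlow := by
  intro a ha ha1
  refine ⟨1, one_pos, fun e0 he0 _ => ⟨1, one_pos, fun k8 hk8 _ => ⟨1, one_pos, fun k3 hk3 _ => ?_⟩⟩⟩
  refine ⟨1, 1, 1, 1, one_pos, one_pos, one_pos, one_pos,
    fun c hc _ d hd _ Kt e cP L hK he hcP hL => ⟨L, hL, 0, le_rfl, ?_⟩⟩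
  intro t ht ht1 n ez F1 F2 F3 h1 h3 h2 o ho K hKn x ι _ _ s r U g u v hs hr hcls Q1 Q2 Q3 q1 q2
    q3 hez L' e' he' hm t0 ht0 j
  have hL0 : 0 ≤ L := by linarith
  have hr0 : 0 < r := by linarith
  set p : H401.Num := ⟨a, e0, k8, k3, c, d, Kt, e, cP, L, L, t⟩ with hp
  have hLm : 0 < p.Lm := Real.rpow_pos_of_pos ht _
  have hcC : 0 < cCz p s := by
    unfold cCz
    have := mul_pos hLm hs
    positivity
  have hP : 0 ≤ L * t ^ (2 - c) * √s :=
    mul_nonneg (mul_nonneg hL0 (Real.rpow_pos_of_pos ht _).le) (Real.sqrt_nonneg _)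
  refine (zflow_tile (p := p) (o := o) he' hm ht hs hr hez hKn hcls.toCls hP q2 hcC t0 j).trans ?_
  have h4 := pot_gap (e0 := e0) ht ht1 hs hr hc hd.le hL0
  have e1 : p.lam s r = t ^ (2 - e0) * √s * r ^ e0 := rfl
  have e2 : lsz p = t ^ (-(8 * (c + d))) := rfl
  have e3 : p.CD = L := rfl
  have e4 : p.e0 = e0 := rfl
  have e5 : p.t = t := rfl
  rw [e1, e2, e3, e4, e5]
  have h5 : p.th s r ^ 2 * 1 * (L * t ^ (2 - c) * √s / (t ^ (2 - e0) * √s * r ^ e0)) * s ≤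
      p.th s r ^ 2 * 1 * (L * (t ^ (-(8 * (c + d))) * (t / r) ^ e0)) * s :=
    mul_le_mul_of_nonneg_right (mul_le_mul_of_nonneg_left h4 (by positivity)) hs.le
  refine (mul_le_mul_of_nonneg_left h5 (by positivity)).trans (le_of_eq ?_)
  ring

end

end Vale.Agent.P141.H672
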