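import Vale.Agent.P141.H633.FlowV
import Vale.Agent.P141.H609.HZL

/-!
# P141, line (A): the flow pair of the C-step from the cap of the second slot

`flowD` : the hypothesis `hqF` of `H609.tzX_lab` for every level, from the cap `th` of the labelled
slot `b` (no structure of `b` over `x₀`).
-/

namespace Vale.Agent.P141.H672

open Finset Matrix Vale.Agent.P075 Vale.Agent.P141.PL Vale.Agent.P141.PL.H588
open Vale.Agent.P141.PL.H804 Vale.Agent.P141.H958 Vale.Agent.P141.H338 Vale.Agent.P141.H633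
open Vale.Agent.P141.PL.H315 (avg avg_nonneg)
open Vale.Agent.P141.H420 (Nd Tr)

noncomputable section

open scoped Classical

variable {κ : Type*} [Fintype κ] [DecidableEq κ] {L : ℕ} {ev : κ → ℤ}

/-- the cap of a labelled slot as a bound of the columns -/
theorem capR_sum (he : Function.Injective ev) (hm : ∀ i, ev i ∈ lbs L) {k : ℕ} {q p : ℤ} {th : ℝ}
    {b : ℤ → ℤ → κ → ℝ} (h : CapR L k q p th fun lab y x => cu ev (b y x) lab)
    (ψ : ℤ → κ → ℝ) :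
    ∑ y ∈ iv k q, (∑ x ∈ iv k p, ∑ j, ψ x j * b y x j) ^ 2 ≤
      (th * 2 ^ k) ^ 2 * ∑ x ∈ iv k p, ∑ j, ψ x j ^ 2 := by
  set V : ℤ → ℝ := fun y => ∑ x ∈ iv k p, ∑ j, ψ x j * b y x j with hV
  have h1 := h (fun lab x => cu ev (ψ x) lab) V
  have e1 : ∑ x ∈ iv k p, ∑ l ∈ lbs L, ∑ y ∈ iv k q,
      cu ev (ψ x) l * V y * cu ev (b y x) l = ∑ y ∈ iv k q, V y ^ 2 := by
    have e2 : ∀ x ∈ iv k p, ∑ l ∈ lbs L, ∑ y ∈ iv k q, cu ev (ψ x) l * V y * cu ev (b y x) l =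
        ∑ y ∈ iv k q, V y * ∑ j, ψ x j * b y x j := by
      intro x _
      rw [sum_comm]
      refine sum_congr rfl fun y _ => ?_
      rw [← sum_cu_cu he hm (ψ x) (b y x), mul_sum]
      exact sum_congr rfl fun l _ => by ring
    rw [sum_congr rfl e2, sum_comm]
    refine sum_congr rfl fun y _ => ?_
    rw [← mul_sum, pow_two]
  have e3 : ∀ x ∈ iv k p, ∑ l ∈ lbs L, cu ev (ψ x) l ^ 2 = ∑ j, ψ x j ^ 2 := by
    intro x _
    have := sum_cu_cu he hm (ψ x) (ψ x)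
    simp only [← pow_two] at this
    exact this
  simp only at h1
  rw [e1, sum_congr rfl e3] at h1
  set S := ∑ y ∈ iv k q, V y ^ 2 with hS
  have hS0 : 0 ≤ S := sum_nonneg fun _ _ => sq_nonneg _
  rcases hS0.eq_or_lt with h0 | h0
  · rw [← h0]
    exact mul_nonneg (sq_nonneg _) (sum_nonneg fun _ _ => sum_nonneg fun _ _ => sq_nonneg _)
  · exact le_of_mul_le_mul_right (by rw [← pow_two]; exact h1) h0

/-- **The node.** -/
theorem node_le (he : Function.Injective ev) (hm : ∀ i, ev i ∈ lbs L) {k : ℕ} (hk : 1 ≤ k)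
    {sC th : ℝ} (hs0 : 0 < sC) (r q p : ℤ) (c b : ℤ → ℤ → κ → ℝ) (S : ℤ → Matrix κ κ ℝ)
    (hcap : CapR L k q p th fun lab y x => cu ev (b y x) lab) :
    (phi (gramC ((sC ^ 2)⁻¹ * (4 ^ (k + L))⁻¹)
        (bl (k + L) (encR L fun lab w x => cu ev (c w x) lab) r p)) *
      ((hd (k + L) * (bl (k + L) (encR L fun lab y x => cu ev (S x *ᵥ b y x) lab) q p)ᵀ) *
        (hd (k + L) * (bl (k + L)
          (encR L fun lab y x => cu ev (S x *ᵥ b y x) lab) q p)ᵀ)ᵀ)).trace ≤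
      (sC ^ 2)⁻¹ * (4 ^ L * (th ^ 2 *
        ∑ x ∈ iv k p, ∑ w ∈ iv k r, nv ((S x)ᵀ *ᵥ c w x))) := by
  obtain ⟨Cc, -, h2, h3⟩ := node_glue he hm hk hs0 r q p c
  rw [h3 fun y x => S x *ᵥ b y x]
  have h2k : (0 : ℝ) < 2 ^ k := by positivity
  have hsq1 : ∀ x, hs k x ^ 2 = 1 := by
    intro x
    unfold hs
    split_ifs <;> norm_num
  -- the kernel against `b`
  set ψ : ℤ → ℤ → κ → ℝ := fun w x j => hs k x * ∑ l, Cc l x w * S x l j with hψ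
  have e1 : ∀ w y, (avg (iv k p) fun x => hs k x * ∑ l, Cc l x w * (S x *ᵥ b y x) l) =
      (2 ^ k : ℝ)⁻¹ * ∑ x ∈ iv k p, ∑ j, ψ w x j * b y x j := by
    intro w y
    rw [avg_iv]
    congr 1
    refine sum_congr rfl fun x _ => ?_
    simp only [hψ, mulVec, dotProduct, mul_sum, sum_mul]
    rw [sum_comm]
    exact sum_congr rfl fun j _ => sum_congr rfl fun l _ => by ring
  have e2 : ∀ w, ∑ y ∈ iv k q,
      (avg (iv k p) fun x => hs k x * ∑ l, Cc l x w * (S x *ᵥ b y x) l) ^ 2 ≤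
      th ^ 2 * ∑ x ∈ iv k p, ∑ j, ψ w x j ^ 2 := by
    intro w
    simp only [e1, mul_pow, ← mul_sum]
    refine (mul_le_mul_of_nonneg_left (capR_sum he hm hcap (ψ w))
      (sq_nonneg _)).trans (le_of_eq ?_)
    field_simp
  -- the kernel against `c`
  have e3 : ∀ x ∈ iv k p, (avg (iv (k + L) r) fun w => ∑ j, ψ w x j ^ 2) ≤
      (2 ^ k : ℝ)⁻¹ * ∑ w ∈ iv k r, nv ((S x)ᵀ *ᵥ c w x) := by
    intro x hx
    have e4 : (avg (iv (k + L) r) fun w => ∑ j, ψ w x j ^ 2) =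
        ∑ j, avg (iv (k + L) r) fun w => (∑ l, S x l j * Cc l x w) ^ 2 := by
      rw [avg_iv, sum_comm, mul_sum]
      refine sum_congr rfl fun j _ => ?_
      rw [avg_iv]
      congr 1
      refine sum_congr rfl fun w _ => ?_
      simp only [hψ]
      rw [mul_pow, hsq1, one_mul]
      congr 1
      exact sum_congr rfl fun l _ => mul_comm _ _
    rw [e4]
    refine (sum_le_sum fun j _ => h2 x hx fun l => S x l j).trans (le_of_eq ?_)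
    have e5 : ∀ j, (avg (iv (k + L) r) fun w => (∑ l, S x l j * c (ix L w) x l) ^ 2) =
        (2 ^ k : ℝ)⁻¹ * ∑ w ∈ iv k r, (∑ l, S x l j * c w x l) ^ 2 := by
      intro j
      rw [avg_iv, sum_iv_ix L k r fun w => (∑ l, S x l j * c w x l) ^ 2, pow_add]
      have : (2 : ℝ) ^ L ≠ 0 := by positivity
      field_simp
    simp only [e5, ← mul_sum]
    congr 1
    rw [sum_comm]
    refine sum_congr rfl fun w _ => ?_
    unfold nv
    exact sum_congr rfl fun j _ => rfl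
  have e6 : (avg (iv k q) fun y => avg (iv (k + L) r) fun w =>
      (avg (iv k p) fun x => hs k x * ∑ l, Cc l x w * (S x *ᵥ b y x) l) ^ 2) ≤
      (2 ^ k : ℝ)⁻¹ * (th ^ 2 * ∑ x ∈ iv k p,
        ((2 ^ k : ℝ)⁻¹ * ∑ w ∈ iv k r, nv ((S x)ᵀ *ᵥ c w x))) := by
    have e7 : (avg (iv k q) fun y => avg (iv (k + L) r) fun w =>
        (avg (iv k p) fun x => hs k x * ∑ l, Cc l x w * (S x *ᵥ b y x) l) ^ 2) =
        (2 ^ k : ℝ)⁻¹ * ((2 ^ (k + L) : ℝ)⁻¹ * ∑ w ∈ iv (k + L) r, ∑ y ∈ iv k q,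
          (avg (iv k p) fun x => hs k x * ∑ l, Cc l x w * (S x *ᵥ b y x) l) ^ 2) := by
      rw [avg_iv]
      congr 1
      simp only [avg_iv (k + L) r, ← mul_sum]
      rw [sum_comm]
    rw [e7]
    refine mul_le_mul_of_nonneg_left ?_ (by positivity)
    refine (mul_le_mul_of_nonneg_left (sum_le_sum fun w _ => e2 w) (by positivity)).trans ?_
    rw [← mul_sum, mul_left_comm]
    refine mul_le_mul_of_nonneg_left ?_ (sq_nonneg th)
    rw [sum_comm, mul_sum]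
    refine sum_le_sum fun x hx => ?_
    have h := e3 x hx
    rwa [avg_iv] at h
  refine (mul_le_mul_of_nonneg_left e6 (by positivity)).trans (le_of_eq ?_)
  rw [← mul_sum, pow_add, show (4 : ℝ) ^ k = 2 ^ k * 2 ^ k by rw [← mul_pow]; norm_num]
  field_simp

variable {N : ℕ} {R : Pt} {t₀ : ℤ} {c : ℤ → ℕ → ℤ} {s : ℤ → ℕ → Finset Pt}
  {l L₀ Λ M : ℝ} {Cv b : ℤ → ℕ → ℤ → ℤ → κ → ℝ} {Z : ℤ → ℕ → ℤ → ℤ → ℝ}
  {v : ℤ → ℤ → κ → ℝ} {G K : ℤ → ℕ → ℤ → Matrix κ κ ℝ}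

/-- one scale, one pair of cells -/
theorem cell_le (hL : 0 ≤ L₀) {k : ℕ} (hkN : k ≤ N)
    (hcl : ∀ x y, ix k x = ix k y → c x k = c y k)
    (hsl : ∀ x y, ix k x = ix k y → s x k = s y k)
    (hbx : ∀ x₀ ∈ iv N t₀, s x₀ k ⊆ bx3 N R k (c x₀ k))
    (hinj : ∀ x ∈ iv N t₀, ∀ y ∈ iv N t₀, c x k = c y k → ix k x = ix k y)
    (hC : ∀ x₀ ∈ iv N t₀, ∀ m ∈ s x₀ k, ∀ w ∈ iv k m.1, ∀ x ∈ iv k m.2.2,
      Cv x₀ k w x = Z x₀ k x w • v x w)
    (hZ : ∀ x₀ ∈ iv N t₀, ∀ m ∈ s x₀ k, ∀ w ∈ iv k m.1, ∀ x ∈ iv k m.2.2,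
      (avg (iv k (ix k x₀)) fun z => Z z k x w ^ 2) ≤ L₀)
    (htop : ∀ x ∈ iv N R.2.2, ∀ ε : κ → ℝ,
      (avg (iv N R.1) fun w => (∑ i, ε i * v x w i) ^ 2) ≤ Λ * ∑ i, ε i ^ 2)
    (S : ℤ → Matrix κ κ ℝ) {p q : ℤ} (hp : p ∈ iv (N - k) R.2.2) :
    ∑ x₀ ∈ iv N t₀, (if (c x₀ k - p - q, q, p) ∈ s x₀ k then
      ∑ x ∈ iv k p, ∑ w ∈ iv k (c x₀ k - p - q), nv (S x *ᵥ Cv x₀ k w x) else 0) ≤
      2 ^ k * (2 ^ N * (L₀ * Λ)) * ∑ x ∈ iv k p, (S x * (S x)ᵀ).trace := by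
  -- representatives of the cells of `x₀`
  set cJ : ℤ → ℤ := fun J => c (2 ^ k * J) k with hcJ
  set al : ℤ → Prop := fun J => (cJ J - p - q, q, p) ∈ s (2 ^ k * J) k with hal
  have hix : ∀ J z : ℤ, z ∈ iv k J → ix k z = ix k (2 ^ k * J) := by
    intro J z hz
    rw [mem_iv.1 hz]
    symm
    apply mem_iv.1
    unfold iv
    rw [mem_Ico]
    have : (0 : ℤ) < 2 ^ k := by positivity
    constructor <;> linarith
  have hcz : ∀ J z : ℤ, z ∈ iv k J → c z k = cJ J := fun J z hz => hcl _ _ (hix J z hz)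
  have hsz : ∀ J z : ℤ, z ∈ iv k J → s z k = s (2 ^ k * J) k := fun J z hz => hsl _ _ (hix J z hz)
  have hzN : ∀ J ∈ iv (N - k) t₀, ∀ z ∈ iv k J, z ∈ iv N t₀ := by
    intro J hJ z hz
    rw [mem_iv] at hJ hz ⊢
    rw [show N = k + (N - k) by omega, ← ix_ix, hz, hJ]
  have hrep : ∀ J : ℤ, (2 ^ k * J : ℤ) ∈ iv k J := by
    intro J
    unfold iv
    rw [mem_Ico]
    have : (0 : ℤ) < 2 ^ k := by positivity
    constructor <;> linarith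
  have hpN : ∀ x ∈ iv k p, x ∈ iv N R.2.2 := by
    intro x hx
    rw [mem_iv] at hp hx ⊢
    rw [show N = k + (N - k) by omega, ← ix_ix, hx, hp]
  have hrR : ∀ J ∈ iv (N - k) t₀, al J → cJ J - p - q ∈ iv (N - k) R.1 := by
    intro J hJ h
    have h1 := hbx (2 ^ k * J) (hzN J hJ _ (hrep J)) h
    unfold bx3 at h1
    rw [mem_filter, mem_product] at h1
    exact h1.1.1
  -- the sum over one cell of `x₀`
  have e1 : ∀ J ∈ iv (N - k) t₀, ∑ z ∈ iv k J, (if (c z k - p - q, q, p) ∈ s z k then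
      ∑ x ∈ iv k p, ∑ w ∈ iv k (c z k - p - q), nv (S x *ᵥ Cv z k w x) else 0) ≤
      2 ^ k * L₀ * (if al J then ∑ w ∈ iv k (cJ J - p - q), ∑ x ∈ iv k p,
        nv (S x *ᵥ v x w) else 0) := by
    intro J hJ
    by_cases ha : al J
    · rw [if_pos ha]
      have e2 : ∀ z ∈ iv k J, (if (c z k - p - q, q, p) ∈ s z k then
          ∑ x ∈ iv k p, ∑ w ∈ iv k (c z k - p - q), nv (S x *ᵥ Cv z k w x) else 0) =
          ∑ w ∈ iv k (cJ J - p - q), ∑ x ∈ iv k p, Z z k x w ^ 2 * nv (S x *ᵥ v x w) := by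
        intro z hz
        have h1 : (c z k - p - q, q, p) ∈ s z k := by
          rw [hcz J z hz, hsz J z hz]
          exact ha
        rw [if_pos h1, hcz J z hz, sum_comm]
        refine sum_congr rfl fun w hw => sum_congr rfl fun x hx => ?_
        rw [hC z (hzN J hJ z hz) _ h1 w (by rw [hcz J z hz]; exact hw) x hx, mulVec_smul]
        unfold nv
        rw [mul_sum]
        exact sum_congr rfl fun i _ => by rw [Pi.smul_apply, smul_eq_mul, mul_pow]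
      rw [sum_congr rfl e2, sum_comm, mul_sum]
      refine sum_le_sum fun w hw => ?_
      rw [sum_comm, mul_sum]
      refine sum_le_sum fun x hx => ?_
      rw [← sum_mul]
      refine mul_le_mul_of_nonneg_right ?_ (nv_nonneg _)
      have h2 := hZ (2 ^ k * J) (hzN J hJ _ (hrep J)) _ ha w hw x hx
      rw [mem_iv.1 (hrep J), avg_iv, inv_mul_le_iff₀ (by positivity)] at h2
      exact h2
    · rw [if_neg ha]
      refine le_of_eq ?_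
      rw [mul_zero]
      refine sum_eq_zero fun z hz => if_neg ?_
      rw [hcz J z hz, hsz J z hz]
      exact ha
  rw [← sum_cells hkN t₀]
  refine (sum_le_sum e1).trans ?_
  rw [← mul_sum]
  have h2 := tie_sum hkN (t₀ := t₀) (r₁ := R.1) (τ := fun J => cJ J - p - q) (P := al)
    (fun J hJ J' hJ' h => ?_) hrR (f := fun w => ∑ x ∈ iv k p, nv (S x *ᵥ v x w))
    (fun w => sum_nonneg fun x _ => nv_nonneg _)
  · have h2' : ∑ J ∈ iv (N - k) t₀, (if al J then ∑ w ∈ iv k (cJ J - p - q), ∑ x ∈ iv k p,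
        nv (S x *ᵥ v x w) else 0) ≤ ∑ w ∈ iv N R.1, ∑ x ∈ iv k p, nv (S x *ᵥ v x w) := by
      refine le_trans (le_of_eq (sum_congr rfl fun J _ => ?_)) h2
      by_cases ha : al J
      · rw [if_pos ha, if_pos ha]
      · rw [if_neg ha, if_neg ha]
    refine (mul_le_mul_of_nonneg_left h2' (show (0 : ℝ) ≤ 2 ^ k * L₀ by positivity)).trans ?_
    rw [sum_comm]
    have e3 : ∀ x ∈ iv k p, ∑ w ∈ iv N R.1, nv (S x *ᵥ v x w) ≤
        2 ^ N * (Λ * (S x * (S x)ᵀ).trace) := by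
      intro x hx
      unfold nv
      rw [sum_comm]
      have e4 : ∀ i : κ, ∑ w ∈ iv N R.1, ((S x *ᵥ v x w) i) ^ 2 ≤
          2 ^ N * (Λ * ∑ j, S x i j ^ 2) := by
        intro i
        have h3 := htop x (hpN x hx) (S x i)
        rw [avg_iv, inv_mul_le_iff₀ (by positivity)] at h3
        exact h3
      refine (sum_le_sum fun i _ => e4 i).trans (le_of_eq ?_)
      rw [← mul_sum, ← mul_sum]
      congr 2
      unfold Matrix.trace
      refine sum_congr rfl fun i _ => ?_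
      rw [diag_apply, Matrix.mul_apply]
      exact sum_congr rfl fun j _ => by rw [transpose_apply]; ring
    refine (mul_le_mul_of_nonneg_left (sum_le_sum e3) (by positivity)).trans (le_of_eq ?_)
    rw [← mul_sum, ← mul_sum]
    ring
  · have h3 : c (2 ^ k * J) k = c (2 ^ k * J') k := by
      simp only [hcJ] at h
      linarith
    have h4 := hinj _ (hzN J hJ _ (hrep J)) _ (hzN J' hJ' _ (hrep J')) h3
    rwa [mem_iv.1 (hrep J), mem_iv.1 (hrep J')] at h4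

/-- **The sum over `x₀` and the nodes.** -/
theorem flowD_sum (hL : 0 ≤ L₀) (hΛ : 0 ≤ Λ) (hl : 0 < l)
    (hcl : ∀ k x y, ix k x = ix k y → c x k = c y k)
    (hsl : ∀ k x y, ix k x = ix k y → s x k = s y k)
    (hbx : ∀ x₀ ∈ iv N t₀, ∀ k ∈ Icc 1 N, s x₀ k ⊆ bx3 N R k (c x₀ k))
    (hinj : ∀ k ∈ Icc 1 N, ∀ x ∈ iv N t₀, ∀ y ∈ iv N t₀, c x k = c y k → ix k x = ix k y)
    (hC : ∀ x₀ ∈ iv N t₀, ∀ k ∈ Icc 1 N, ∀ m ∈ s x₀ k, ∀ w ∈ iv k m.1, ∀ x ∈ iv k m.2.2,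
      Cv x₀ k w x = Z x₀ k x w • v x w)
    (hZ : ∀ x₀ ∈ iv N t₀, ∀ k ∈ Icc 1 N, ∀ m ∈ s x₀ k, ∀ w ∈ iv k m.1, ∀ x ∈ iv k m.2.2,
      (avg (iv k (ix k x₀)) fun z => Z z k x w ^ 2) ≤ L₀)
    (htop : ∀ x ∈ iv N R.2.2, ∀ ε : κ → ℝ,
      (avg (iv N R.1) fun w => (∑ i, ε i * v x w i) ^ 2) ≤ Λ * ∑ i, ε i ^ 2)
    (hT : ∀ x, Tr l N (G x) (K x))
    (hM : ∀ x ∈ iv N R.2.2, (G x N R.2.1).trace ≤ M) :
    ∑ x₀ ∈ iv N t₀, ∑ k ∈ Icc 1 N, ∑ m ∈ s x₀ k, ∑ x ∈ iv k m.2.2, ∑ w ∈ iv k m.1,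
      nv (SfK l K k m.2.1 x *ᵥ Cv x₀ k w x) ≤ 8 ^ N * (L₀ * (Λ / l) * M) := by
  set T : ℤ → ℕ → Pt → ℝ := fun x₀ k m => ∑ x ∈ iv k m.2.2, ∑ w ∈ iv k m.1,
      nv (SfK l K k m.2.1 x *ᵥ Cv x₀ k w x) with hTd
  set dr : ℕ → ℤ → ℤ → ℝ := fun k q x => (SfK l K k q x * (SfK l K k q x)ᵀ).trace with hdr
  -- one scale
  have h1 : ∀ k ∈ Icc 1 N, ∑ x₀ ∈ iv N t₀, ∑ m ∈ s x₀ k, T x₀ k m ≤
      2 ^ N * (L₀ * Λ) * ∑ x ∈ iv N R.2.2, 2 ^ k * ∑ q ∈ iv (N - k) R.2.1, dr k q x := by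
    intro k hk
    have hk1 := (mem_Icc.1 hk).1
    have hkN := (mem_Icc.1 hk).2
    calc ∑ x₀ ∈ iv N t₀, ∑ m ∈ s x₀ k, T x₀ k m
        = ∑ p ∈ iv (N - k) R.2.2, ∑ q ∈ iv (N - k) R.2.1, ∑ x₀ ∈ iv N t₀,
            if (c x₀ k - p - q, q, p) ∈ s x₀ k then T x₀ k (c x₀ k - p - q, q, p) else 0 := by
          rw [sum_congr rfl fun x₀ hx => sum_alive (hbx x₀ hx k hk) (T x₀ k), sum_comm]
          exact sum_congr rfl fun p _ => sum_comm
      _ ≤ ∑ p ∈ iv (N - k) R.2.2, ∑ q ∈ iv (N - k) R.2.1,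
            2 ^ k * (2 ^ N * (L₀ * Λ)) * ∑ x ∈ iv k p, dr k q x :=
          sum_le_sum fun p hp => sum_le_sum fun q _ =>
            cell_le hL hkN (hcl k) (hsl k) (fun x₀ hx => hbx x₀ hx k hk) (hinj k hk)
              (fun x₀ hx => hC x₀ hx k hk) (fun x₀ hx => hZ x₀ hx k hk) htop
              (fun x => SfK l K k q x) hp
      _ = 2 ^ N * (L₀ * Λ) * ∑ x ∈ iv N R.2.2, 2 ^ k * ∑ q ∈ iv (N - k) R.2.1, dr k q x := by
          rw [← sum_cells hkN R.2.2, mul_sum]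
          refine sum_congr rfl fun p _ => ?_
          rw [← mul_sum, sum_comm]
          simp only [← mul_sum]
          ring
  have h2 : ∑ x₀ ∈ iv N t₀, ∑ k ∈ Icc 1 N, ∑ m ∈ s x₀ k, T x₀ k m ≤
      2 ^ N * (L₀ * Λ) *
        ∑ x ∈ iv N R.2.2, ∑ k ∈ Icc 1 N, 2 ^ k * ∑ q ∈ iv (N - k) R.2.1, dr k q x := by
    rw [sum_comm, sum_comm (s := iv N R.2.2), mul_sum]
    exact sum_le_sum fun k hk => h1 k hk
  -- the tree
  have h3 : ∀ x ∈ iv N R.2.2, ∑ k ∈ Icc 1 N, 2 ^ k * ∑ q ∈ iv (N - k) R.2.1, dr k q x ≤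
      2 ^ N * (l⁻¹ * M) := by
    intro x hx
    have h4 := (tree_mass2 (hT x) le_rfl R.2.1).trans (hM x hx)
    rw [H420.tsum_eq] at h4
    have h5 : ∑ k ∈ Icc 1 N, (2 : ℝ) ^ k * ∑ q ∈ iv (N - k) R.2.1, dr k q x =
        2 ^ N * (l⁻¹ * ∑ k ∈ Icc 1 N, (2 ^ (N - k) : ℝ)⁻¹ *
          ∑ q ∈ Ico (2 ^ (N - k) * R.2.1) (2 ^ (N - k) * R.2.1 + 2 ^ (N - k)),
            l * dr k q x) := by
      rw [mul_sum, mul_sum]
      refine sum_congr rfl fun k hk => ?_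
      have e1 : (2 : ℝ) ^ N = 2 ^ (N - k) * 2 ^ k := by
        rw [← pow_add, Nat.sub_add_cancel (mem_Icc.1 hk).2]
      rw [e1, ← mul_sum]
      have e2 : iv (N - k) R.2.1 =
        Ico (2 ^ (N - k) * R.2.1) (2 ^ (N - k) * R.2.1 + 2 ^ (N - k)) := rfl
      rw [e2]
      field_simp
    rw [h5]
    refine mul_le_mul_of_nonneg_left (mul_le_mul_of_nonneg_left (le_trans ?_ h4)
      (inv_nonneg.2 hl.le)) (by positivity)
    refine sum_le_sum fun k hk => mul_le_mul_of_nonneg_left ?_ (by positivity)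
    refine sum_le_sum fun q _ => ?_
    have hk1 := (mem_Icc.1 hk).1
    have hkN := (mem_Icc.1 hk).2
    have hn := (hT x).nd (k := k - 1) (by omega) q
    rw [Nat.sub_add_cancel hk1] at hn
    have hKi := hn.pdK.inv.isHermitian
    have hdh := hn.herm_dK
    have e3 : (0 : ℝ) ≤ l * ((K x k q)⁻¹ *
        Nd.dK (K x (k - 1) (2 * q)) (K x (k - 1) (2 * q + 1)) * (K x k q)⁻¹ * G x k q *
        (K x k q)⁻¹ * Nd.dK (K x (k - 1) (2 * q)) (K x (k - 1) (2 * q + 1)) *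
        (K x k q)⁻¹).trace := by
      refine mul_nonneg hl.le ?_
      set d := Nd.dK (K x (k - 1) (2 * q)) (K x (k - 1) (2 * q + 1)) with hdd
      have h6 := ((hT x).psG k q).mul_mul_conjTranspose_same ((K x k q)⁻¹ * d * (K x k q)⁻¹)
      rw [conjTranspose_mul, conjTranspose_mul, hKi.eq, hdh.eq] at h6
      have h7 := h6.trace_nonneg
      refine le_of_le_of_eq h7 ?_
      simp only [Matrix.mul_assoc]
    have e4 : l * dr k q x = l * (Sf l (K x k q) (K x (k - 1) (2 * q)) (K x (k - 1) (2 * q + 1)) *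
        (Sf l (K x k q) (K x (k - 1) (2 * q)) (K x (k - 1) (2 * q + 1)))ᵀ).trace := rfl
    rw [e4]
    linarith
  have h6 : ∑ x ∈ iv N R.2.2, ∑ k ∈ Icc 1 N, 2 ^ k * ∑ q ∈ iv (N - k) R.2.1, dr k q x ≤
      4 ^ N * (l⁻¹ * M) := by
    refine (sum_le_sum h3).trans (le_of_eq ?_)
    rw [sum_const, PL.card_iv, nsmul_eq_mul]
    push_cast
    rw [show (4 : ℝ) ^ N = 2 ^ N * 2 ^ N by rw [← mul_pow]; norm_num]
    ring
  refine h2.trans ((mul_le_mul_of_nonneg_left h6 (by positivity)).trans (le_of_eq ?_))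
  rw [show (8 : ℝ) ^ N = 2 ^ N * 4 ^ N by rw [← mul_pow]; norm_num]
  field_simp

/-- **The flow pair of the C-step from the cap of the second slot**: `hqF` of `H609.tzX_lab`. -/
theorem flowD (he : Function.Injective ev) (hm : ∀ i, ev i ∈ lbs L) {cC th : ℝ} (hcC : 0 < cC)
    (hL : 0 ≤ L₀) (hΛ : 0 ≤ Λ) (hl : 0 < l)
    (hcl : ∀ k x y, ix k x = ix k y → c x k = c y k)
    (hsl : ∀ k x y, ix k x = ix k y → s x k = s y k)
    (hbx : ∀ x₀ ∈ iv N t₀, ∀ k ∈ Icc 1 N, s x₀ k ⊆ bx3 N R k (c x₀ k))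
    (hinj : ∀ k ∈ Icc 1 N, ∀ x ∈ iv N t₀, ∀ y ∈ iv N t₀, c x k = c y k → ix k x = ix k y)
    (hC : ∀ x₀ ∈ iv N t₀, ∀ k ∈ Icc 1 N, ∀ m ∈ s x₀ k, ∀ w ∈ iv k m.1, ∀ x ∈ iv k m.2.2,
      Cv x₀ k w x = Z x₀ k x w • v x w)
    (hZ : ∀ x₀ ∈ iv N t₀, ∀ k ∈ Icc 1 N, ∀ m ∈ s x₀ k, ∀ w ∈ iv k m.1, ∀ x ∈ iv k m.2.2,
      (avg (iv k (ix k x₀)) fun z => Z z k x w ^ 2) ≤ L₀)
    (htop : ∀ x ∈ iv N R.2.2, ∀ ε : κ → ℝ,
      (avg (iv N R.1) fun w => (∑ i, ε i * v x w i) ^ 2) ≤ Λ * ∑ i, ε i ^ 2)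
    (hcap : ∀ x₀ ∈ iv N t₀, ∀ k ∈ Icc 1 N, ∀ m ∈ s x₀ k,
      CapR L k m.2.1 m.2.2 th fun lab y x => cu ev (b x₀ k y x) lab)
    (hT : ∀ x, Tr l N (G x) (K x))
    (hM : ∀ x ∈ iv N R.2.2, (G x N R.2.1).trace ≤ M) (e : ℕ) :
    ∑ x₀ ∈ iv N t₀, (cC / 2 ^ (e - 1)) ^ 2 * ∑ k ∈ Icc 1 N, ∑ m ∈ s x₀ k,
      (phi (gramC (lv cC e * (4 ^ (k + L))⁻¹)
          (bl (k + L) (encR L fun lab w x => cu ev (Cv x₀ k w x) lab) m.1 m.2.2)) *
        (YF L l ev K (b x₀) (k + L) m * (YF L l ev K (b x₀) (k + L) m)ᵀ)).trace ≤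
      4 ^ L * 8 ^ N * (th ^ 2 * (L₀ * (Λ / l) * M)) := by
  have hi := inv_lv hcC e
  set sC : ℝ := cC / 2 ^ (e - 1) with hsC
  have pC : 0 < sC := by positivity
  have hlv : lv cC e = (sC ^ 2)⁻¹ := by rw [← hi, inv_inv]
  have h1 : ∀ x₀ ∈ iv N t₀, ∀ k ∈ Icc 1 N, ∀ m ∈ s x₀ k, sC ^ 2 *
      (phi (gramC (lv cC e * (4 ^ (k + L))⁻¹)
          (bl (k + L) (encR L fun lab w x => cu ev (Cv x₀ k w x) lab) m.1 m.2.2)) *
        (YF L l ev K (b x₀) (k + L) m * (YF L l ev K (b x₀) (k + L) m)ᵀ)).trace ≤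
      4 ^ L * th ^ 2 * ∑ x ∈ iv k m.2.2, ∑ w ∈ iv k m.1,
        nv (SfK l K k m.2.1 x *ᵥ Cv x₀ k w x) := by
    intro x₀ hx k hk m hm'
    have hk1 := (mem_Icc.1 hk).1
    have hkN := (mem_Icc.1 hk).2
    have h2 := node_le he hm hk1 pC m.1 m.2.1 m.2.2 (Cv x₀ k) (b x₀ k)
      (fun x => SfK l K k m.2.1 x) (hcap x₀ hx k hk m hm')
    have h3 : ∀ x, (SfK l K k m.2.1 x)ᵀ = SfK l K k m.2.1 x := by
      intro x
      have hn := (hT x).nd (k := k - 1) (by omega) m.2.1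
      rw [Nat.sub_add_cancel hk1] at hn
      have := (Sf_herm hn).eq
      rwa [conjTranspose_eq_transpose_of_trivial] at this
    simp only [h3] at h2
    have h4 : YF L l ev K (b x₀) (k + L) m = hd (k + L) * (bl (k + L)
        (encR L fun lab y x => cu ev (SfK l K k m.2.1 x *ᵥ b x₀ k y x) lab) m.2.1 m.2.2)ᵀ := by
      unfold YF FB
      rw [Nat.add_sub_cancel]
    rw [h4, hlv]
    refine (mul_le_mul_of_nonneg_left h2 (sq_nonneg sC)).trans (le_of_eq ?_)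
    field_simp
  have h5 : ∑ x₀ ∈ iv N t₀, sC ^ 2 * ∑ k ∈ Icc 1 N, ∑ m ∈ s x₀ k,
      (phi (gramC (lv cC e * (4 ^ (k + L))⁻¹)
          (bl (k + L) (encR L fun lab w x => cu ev (Cv x₀ k w x) lab) m.1 m.2.2)) *
        (YF L l ev K (b x₀) (k + L) m * (YF L l ev K (b x₀) (k + L) m)ᵀ)).trace ≤
      ∑ x₀ ∈ iv N t₀, ∑ k ∈ Icc 1 N, ∑ m ∈ s x₀ k, 4 ^ L * th ^ 2 *
        ∑ x ∈ iv k m.2.2, ∑ w ∈ iv k m.1, nv (SfK l K k m.2.1 x *ᵥ Cv x₀ k w x) := by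
    refine sum_le_sum fun x₀ hx => ?_
    rw [mul_sum]
    refine sum_le_sum fun k hk => ?_
    rw [mul_sum]
    exact sum_le_sum fun m hm' => h1 x₀ hx k hk m hm'
  refine h5.trans ?_
  simp only [← mul_sum]
  refine (mul_le_mul_of_nonneg_left (flowD_sum hL hΛ hl hcl hsl hbx hinj hC hZ htop hT hM)
    (by positivity)).trans (le_of_eq (by ring))

end

end Vale.Agent.P141.H672
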